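import Mathlib

/-!
# Row 213, generic calculus tool 2 (Mathlib only): inverse function theorem with parameters
-/

set_option autoImplicit false
open Set Filter Topology Metric
open scoped ContDiff

namespace Claimed.Agent.R213.Calc

variable {X E F : Type*} [NormedAddCommGroup X] [NormedSpace ℝ X] [CompleteSpace X]
  [NormedAddCommGroup E] [NormedSpace ℝ E] [CompleteSpace E]
  [NormedAddCommGroup F] [NormedSpace ℝ F] [CompleteSpace F]

omit [CompleteSpace X] [CompleteSpace E] [CompleteSpace F] in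
/-- the block triangular map `(x,u) ↦ (x, A (x,u))` is an equivalence if `u ↦ A (0,u)` is. -/
theorem ift_exists_blockEquiv (A : X × E →L[ℝ] F)
    (hB : (A ∘L ContinuousLinearMap.inr ℝ X E).IsInvertible) :
    ∃ e : (X × E) ≃L[ℝ] (X × F),
      (e : X × E →L[ℝ] X × F) = (ContinuousLinearMap.fst ℝ X E).prod A := by
  obtain ⟨B, hB⟩ := hB
  have hBu : ∀ u, B u = A (0, u) := by
    intro u
    have := congrArg (fun T : E →L[ℝ] F => T u) hB
    simpa using this
  have hsplit : ∀ (x : X) (u : E), A (x, u) = A (x, 0) + A (0, u) := by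
    intro x u
    rw [← map_add]
    simp
  refine ⟨ContinuousLinearEquiv.equivOfInverse
    ((ContinuousLinearMap.fst ℝ X E).prod A)
    ((ContinuousLinearMap.fst ℝ X F).prod ((B.symm : F →L[ℝ] E) ∘L
      (ContinuousLinearMap.snd ℝ X F -
        A ∘L (ContinuousLinearMap.inl ℝ X E) ∘L ContinuousLinearMap.fst ℝ X F))) ?_ ?_, ?_⟩
  · rintro ⟨x, u⟩
    simp only [ContinuousLinearMap.prod_apply, ContinuousLinearMap.coe_fst',
      ContinuousLinearMap.coe_comp, Function.comp_apply, FunLike.coe_sub,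
      Pi.sub_apply, ContinuousLinearMap.coe_snd', ContinuousLinearMap.inl_apply,
      ContinuousLinearEquiv.coe_coe]
    rw [hsplit x u, add_sub_cancel_left, ← hBu, ContinuousLinearEquiv.symm_apply_apply]
  · rintro ⟨x, y⟩
    simp only [ContinuousLinearMap.prod_apply, ContinuousLinearMap.coe_fst',
      ContinuousLinearMap.coe_comp, Function.comp_apply, FunLike.coe_sub,
      Pi.sub_apply, ContinuousLinearMap.coe_snd', ContinuousLinearMap.inl_apply,
      ContinuousLinearEquiv.coe_coe]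
    rw [hsplit x, ← hBu, ContinuousLinearEquiv.apply_symm_apply]
    simp
  · rfl

omit [CompleteSpace X] [CompleteSpace E] [CompleteSpace F] in
/-- partial derivative in the second variable. -/
theorem ift_fderiv_partial {f : X × E → F} {p : X × E} (hf : DifferentiableAt ℝ f p) :
    fderiv ℝ (fun u : E => f (p.1, u)) p.2 = fderiv ℝ f p ∘L ContinuousLinearMap.inr ℝ X E := by
  have h1 : HasFDerivAt (fun u : E => (p.1, u)) (ContinuousLinearMap.inr ℝ X E) p.2 :=
    hasFDerivAt_prodMk_right p.1 p.2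
  have h2 : HasFDerivAt f (fderiv ℝ f p) (p.1, p.2) := hf.hasFDerivAt
  exact (h2.comp p.2 h1).fderiv

/-- `f (x, u) = y` can be solved smoothly for `u` near `(x0,u0)` if `D_u f (x0,u0)` is invertible;
`S` = neighbourhood of `(x0,u0)` in which the solution is unique, `R` = domain of the solution.
(`ContDiffAt ℝ ∞ f p0` alone would not be enough: it does not give smoothness on a neighbourhood.) -/
theorem ift_param (f : X × E → F) (p0 : X × E) (hf : ∀ᶠ p in 𝓝 p0, ContDiffAt ℝ ∞ f p)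
    (hB : (fderiv ℝ (fun u : E => f (p0.1, u)) p0.2).IsInvertible) :
    ∃ (W : X × F → E) (S : Set (X × E)) (R : Set (X × F)), IsOpen S ∧ IsOpen R ∧ p0 ∈ S ∧
      ContDiffOn ℝ ∞ W R ∧ (∀ p ∈ S, ContDiffAt ℝ ∞ f p) ∧
      (∀ q ∈ R, (q.1, W q) ∈ S ∧ f (q.1, W q) = q.2) ∧
      (∀ p ∈ S, (p.1, f p) ∈ R ∧ W (p.1, f p) = p.2) ∧
      (∀ p ∈ S, (fderiv ℝ (fun u : E => f (p.1, u)) p.2).IsInvertible) := by
  have hf0 : ContDiffAt ℝ ∞ f p0 := hf.self_of_nhds
  have hdiff : ∀ {p}, ContDiffAt ℝ ∞ f p → DifferentiableAt ℝ f p :=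
    fun h => h.differentiableAt (by simp)
  -- invertibility of the partial derivative is an open condition
  have hinv : ∀ᶠ p in 𝓝 p0, (fderiv ℝ f p ∘L ContinuousLinearMap.inr ℝ X E).IsInvertible := by
    have hc : ContinuousAt (fun p => fderiv ℝ f p ∘L ContinuousLinearMap.inr ℝ X E) p0 := by
      have h1 : ContinuousAt (fderiv ℝ f) p0 :=
        (hf0.fderiv_right (m := 0) (by simp)).continuousAt
      exact h1.clm_comp continuousAt_const
    rw [ift_fderiv_partial (hdiff hf0)] at hB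
    obtain ⟨B, hB⟩ := hB
    have hn := ContinuousLinearEquiv.nhds B
    rw [hB] at hn
    filter_upwards [hc hn] with p hp
    exact hp
  obtain ⟨S0, hS0, hS0o, hp0⟩ := _root_.eventually_nhds_iff.1 (hf.and hinv)
  -- the map `Ψ`
  set Ψ : X × E → X × F := fun p => (p.1, f p) with hΨ
  have hΨs : ∀ p ∈ S0, ContDiffAt ℝ ∞ Ψ p := fun p hp => contDiffAt_fst.prodMk (hS0 p hp).1
  have hΨd : ∀ p ∈ S0, HasFDerivAt Ψ ((ContinuousLinearMap.fst ℝ X E).prod (fderiv ℝ f p)) p :=
    fun p hp => hasFDerivAt_fst.prodMk (hdiff (hS0 p hp).1).hasFDerivAt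
  obtain ⟨e0, he0⟩ := ift_exists_blockEquiv (fderiv ℝ f p0) (hS0 p0 hp0).2
  have hΨd0 : HasFDerivAt Ψ (e0 : X × E →L[ℝ] X × F) p0 := by rw [he0]; exact hΨd p0 hp0
  set e := (hΨs p0 hp0).toOpenPartialHomeomorph Ψ hΨd0 (by simp) with he
  have hecoe : ∀ p, e p = (p.1, f p) := fun p => rfl
  refine ⟨fun q => (e.symm q).2, e.source ∩ S0, e.target ∩ e.symm ⁻¹' S0,
    e.open_source.inter hS0o, e.isOpen_inter_preimage_symm hS0o,
    ⟨(hΨs p0 hp0).mem_toOpenPartialHomeomorph_source hΨd0 (by simp), hp0⟩, ?_, ?_, ?_, ?_, ?_⟩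
  · intro q hq
    obtain ⟨eq, heq⟩ := ift_exists_blockEquiv (fderiv ℝ f (e.symm q)) (hS0 _ hq.2).2
    have h1 : ContDiffAt ℝ ∞ e.symm q := by
      refine e.contDiffAt_symm (f₀' := eq) hq.1 ?_ (hΨs _ hq.2)
      rw [heq]
      exact hΨd _ hq.2
    exact (contDiffAt_snd.comp q h1).contDiffWithinAt
  · exact fun p hp => (hS0 p hp.2).1
  · intro q hq
    have h1 : e (e.symm q) = q := e.right_inv hq.1
    rw [hecoe] at h1
    have h2 : (e.symm q).1 = q.1 := congrArg Prod.fst h1
    have h3 : f (e.symm q) = q.2 := congrArg Prod.snd h1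
    have h4 : (q.1, (e.symm q).2) = e.symm q := by rw [← h2]
    simp only
    rw [h4]
    exact ⟨⟨e.map_target hq.1, hq.2⟩, h3⟩
  · intro p hp
    have h1 : e.symm (p.1, f p) = p := e.left_inv hp.1
    refine ⟨⟨e.map_source hp.1, ?_⟩, ?_⟩
    · change e.symm (p.1, f p) ∈ S0
      rw [h1]; exact hp.2
    · simp only
      rw [h1]
  · intro p hp
    rw [ift_fderiv_partial (hdiff (hS0 p hp.2).1)]
    exact (hS0 p hp.2).2

end Claimed.Agent.R213.Calc
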