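import Mathlib

/-!
# Row 213, generic tool 4 (Mathlib only): calculus core of "no conjugate point before the cut point"

`e = exp_x` in a chart of the target (`V` = coordinates of `T_x M`, `g0` = metric at `x`), `g` = metric in the
target chart, `b = |U|²/2` = branch cost to the point `y₊ = exp_x ((1+σ) v)`, `Uh` its velocity field
(`D b = - g (Uh, ·)`), `K = c(x, y₊)`.

Hypotheses: Gauss lemma `hgauss`; on the ray `Uh (e (t v)) = ((1+σ-t)/t) • vh (t v)`, `vh u := D e (u) u`;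
`Ξ (t,u) := ((1+σ)/t) g0(u,u)/2 + ((1+σ)/(1+σ-t)) b (e u) - K ≥ 0` near `(1,v)`, with equality at `u = t v`.
Claim: `D e (v) k = 0` and `D vh (v) k ≠ 0` is impossible.

Proof.  Fix `t` near `1`, `f ε := Ξ (t, t v + ε k)`, `λ = t/(1+σ)`.  By `hg0`, `hgauss`, `hDb`:
`f' ε = g (e u) (m u) (D e (u) k)`, `u = t v + ε k`, `m u := vh u / λ - Uh (e u) / (1-λ)`, and `m (t v) = 0` by `hUray`.
So `f'' 0 = g (e (t v)) (D m (t v) k) (β t)`, `β t := D e (t v) k`,
`D m (t v) k = D vh (t v) k / λ - D Uh (e (t v)) (β t) / (1-λ)`.  `f` has a local minimum at `0`, so `f'' 0 ≥ 0`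
(second derivative test, e.g. `isLocalMax_of_deriv_deriv_neg` applied by contradiction).
`β 1 = 0` and `β' 1 = D² e (v) (v,k) = D vh (v) k - D e (v) k = D vh (v) k =: a` (symmetry of the second derivative).
Hence `f_t'' 0 = (t-1) (1+σ) g (e v) a a + o (t-1)`, which is negative for `t < 1` close to `1`.  Contradiction.
-/

set_option autoImplicit false
open Set Filter Topology Metric
open scoped ContDiff

namespace Claimed.Agent.R213.Calc

section aux
variable {E F : Type*} [NormedAddCommGroup E] [NormedSpace ℝ E]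
  [NormedAddCommGroup F] [NormedSpace ℝ F]

theorem jc_tendsto_clm_apply {α : Type*} {l : Filter α} {f : α → E →L[ℝ] F} {g : α → E}
    {f0 : E →L[ℝ] F} {g0 : E} (hf : Tendsto f l (𝓝 f0)) (hg : Tendsto g l (𝓝 g0)) :
    Tendsto (fun x => f x (g x)) l (𝓝 (f0 g0)) :=
  ((isBoundedBilinearMap_apply (𝕜 := ℝ) (E := E) (F := F)).continuous.tendsto (f0, g0)).comp
    (hf.prodMk_nhds hg)

/-- product rule when the vector factor vanishes: only continuity of the operator factor is needed. -/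
theorem jc_hasDerivAt_apply_of_zero {B : ℝ → E →L[ℝ] F} {B0 : E →L[ℝ] F} {β : ℝ → E} {a : E} {x : ℝ}
    (hB : Tendsto B (𝓝 x) (𝓝 B0)) (hβ : HasDerivAt β a x) (h0 : β x = 0) :
    HasDerivAt (fun y => B y (β y)) (B0 a) x := by
  rw [hasDerivAt_iff_tendsto_slope] at hβ ⊢
  have h1 : Tendsto (fun y => B y (slope β x y)) (𝓝[≠] x) (𝓝 (B0 a)) :=
    jc_tendsto_clm_apply (hB.mono_left nhdsWithin_le_nhds) hβ
  refine h1.congr fun y => ?_
  simp [slope_def_module, h0]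

theorem jc_hasDerivAt_apply₂_of_zero {G : Type*} [NormedAddCommGroup G] [NormedSpace ℝ G]
    {B : ℝ → E →L[ℝ] F →L[ℝ] G} {B0 : E →L[ℝ] F →L[ℝ] G} {β : ℝ → E} {γ : ℝ → F} {γ0 : F}
    {a : E} {x : ℝ}
    (hB : Tendsto B (𝓝 x) (𝓝 B0)) (hγ : Tendsto γ (𝓝 x) (𝓝 γ0))
    (hβ : HasDerivAt β a x) (h0 : β x = 0) :
    HasDerivAt (fun y => B y (β y) (γ y)) (B0 a γ0) x := by
  rw [hasDerivAt_iff_tendsto_slope] at hβ ⊢
  have h1 : Tendsto (fun y => B y (slope β x y) (γ y)) (𝓝[≠] x) (𝓝 (B0 a γ0)) :=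
    jc_tendsto_clm_apply (jc_tendsto_clm_apply (hB.mono_left nhdsWithin_le_nhds) hβ) (hγ.mono_left nhdsWithin_le_nhds)
  refine h1.congr fun y => ?_
  simp [slope_def_module, h0]

/-- second derivative test, in the form used below. -/
theorem jc_second_deriv_nonneg {f F : ℝ → ℝ} {G : ℝ} (hmin : ∀ᶠ ε in 𝓝 (0 : ℝ), f 0 ≤ f ε)
    (hd : ∀ᶠ ε in 𝓝 (0 : ℝ), HasDerivAt f (F ε) ε) (hF : HasDerivAt F G 0) (hF0 : F 0 = 0) :
    0 ≤ G := by
  by_contra hG
  rw [not_le] at hG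
  have hdf : deriv f =ᶠ[𝓝 0] F := hd.mono fun ε h => h.deriv
  have h2 : deriv (deriv f) 0 = G := by rw [hdf.deriv_eq, hF.deriv]
  have h1 : deriv f 0 = 0 := by rw [hdf.self_of_nhds, hF0]
  have hc : ContinuousAt f 0 := hd.self_of_nhds.continuousAt
  have hmax : IsLocalMax f 0 := isLocalMax_of_deriv_deriv_neg (by rw [h2]; exact hG) h1 hc
  have hconst : f =ᶠ[𝓝 0] fun _ => f 0 := by
    filter_upwards [hmin, hmax] with ε h1 h2
    exact le_antisymm h2 h1
  have h3 : deriv f =ᶠ[𝓝 0] fun _ => 0 := by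
    have := hconst.deriv
    simpa using this
  have h4 : deriv (deriv f) 0 = 0 := by rw [h3.deriv_eq]; simp
  rw [h2] at h4
  exact absurd h4 hG.ne

end aux

section core
variable {V E : Type*} [NormedAddCommGroup V] [NormedSpace ℝ V]
  [NormedAddCommGroup E] [NormedSpace ℝ E]

/-- the second variation at a fixed time. -/
theorem jc_fixed (e : V → E) (w k : V) (g0 : V →L[ℝ] V →L[ℝ] ℝ)
    (g : E → E →L[ℝ] E →L[ℝ] ℝ) (b : E → ℝ) (Uh : E → E) (c1 c2 K : ℝ)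
    (hg0 : ∀ a c : V, g0 a c = g0 c a)
    (he : ∀ᶠ u in 𝓝 w, DifferentiableAt ℝ e u)
    (hde : ContinuousAt (fderiv ℝ e) w)
    (hg : ContinuousAt g (e w))
    (hb : ∀ᶠ y in 𝓝 (e w), DifferentiableAt ℝ b y)
    (hvh : DifferentiableAt ℝ (fun u : V => fderiv ℝ e u u) w)
    (hU : DifferentiableAt ℝ Uh (e w))
    (hgauss : ∀ᶠ u in 𝓝 w, ∀ c : V, g0 u c = g (e u) (fderiv ℝ e u u) (fderiv ℝ e u c))
    (hDb : ∀ᶠ y in 𝓝 (e w), ∀ δ : E, fderiv ℝ b y δ = - g y (Uh y) δ)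
    (hm : c1 • fderiv ℝ e w w - c2 • Uh (e w) = 0)
    (hnonneg : ∀ᶠ u in 𝓝 w, 0 ≤ c1 * (g0 u u / 2) + c2 * b (e u) - K)
    (hzero : c1 * (g0 w w / 2) + c2 * b (e w) - K = 0) :
    0 ≤ g (e w) (c1 • fderiv ℝ (fun u : V => fderiv ℝ e u u) w k
        - c2 • fderiv ℝ Uh (e w) (fderiv ℝ e w k)) (fderiv ℝ e w k) := by
  set u : ℝ → V := fun ε => w + ε • k with hu_def
  have hu0 : u 0 = w := by simp [hu_def]
  have hud : ∀ ε, HasDerivAt u k ε := fun ε => by
    simpa [hu_def] using ((hasDerivAt_id ε).smul_const k).const_add w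
  have hut : Tendsto u (𝓝 0) (𝓝 w) := by
    have := (hud 0).continuousAt.tendsto
    rwa [hu0] at this
  have hew : ContinuousAt e w := he.self_of_nhds.continuousAt
  have heut : Tendsto (fun ε => e (u ε)) (𝓝 0) (𝓝 (e w)) := hew.tendsto.comp hut
  refine jc_second_deriv_nonneg
    (f := fun ε => c1 * (g0 (u ε) (u ε) / 2) + c2 * b (e (u ε)) - K)
    (F := fun ε => g (e (u ε)) (c1 • fderiv ℝ e (u ε) (u ε) - c2 • Uh (e (u ε)))
      (fderiv ℝ e (u ε) k)) ?_ ?_ ?_ ?_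
  · simp only [hu0, hzero]
    exact hut.eventually hnonneg
  · filter_upwards [hut.eventually he, hut.eventually hgauss, heut.eventually hb,
      heut.eventually hDb] with ε h1 h2 h3 h4
    have d1 : HasDerivAt (fun ε => g0 (u ε)) (g0 k) ε :=
      g0.hasFDerivAt.comp_hasDerivAt ε (hud ε)
    have d2 : HasDerivAt (fun ε => g0 (u ε) (u ε)) (g0 k (u ε) + g0 (u ε) k) ε :=
      d1.clm_apply (hud ε)
    have d3 : HasDerivAt (fun ε => e (u ε)) (fderiv ℝ e (u ε) k) ε :=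
      h1.hasFDerivAt.comp_hasDerivAt ε (hud ε)
    have d4 : HasDerivAt (fun ε => b (e (u ε))) (fderiv ℝ b (e (u ε)) (fderiv ℝ e (u ε) k)) ε :=
      h3.hasFDerivAt.comp_hasDerivAt ε d3
    have d5 := (((d2.div_const 2).const_mul c1).add (d4.const_mul c2)).sub_const K
    refine HasDerivAt.congr_deriv d5 ?_
    rw [h4, hg0 k (u ε), h2 k]
    simp only [map_sub, map_smul, sub_apply, smul_apply,
      smul_eq_mul]
    ring
  · have hβ : HasDerivAt (fun ε => c1 • fderiv ℝ e (u ε) (u ε) - c2 • Uh (e (u ε)))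
        (c1 • fderiv ℝ (fun u : V => fderiv ℝ e u u) w k
          - c2 • fderiv ℝ Uh (e w) (fderiv ℝ e w k)) 0 := by
      have e1 : HasDerivAt (fun ε => fderiv ℝ e (u ε) (u ε))
          (fderiv ℝ (fun u : V => fderiv ℝ e u u) w k) 0 := by
        have := hvh.hasFDerivAt
        rw [← hu0] at this
        have h := this.comp_hasDerivAt (0 : ℝ) (hud 0)
        rw [hu0] at h
        exact h
      have e2 : HasDerivAt (fun ε => e (u ε)) (fderiv ℝ e w k) 0 := by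
        have := he.self_of_nhds.hasFDerivAt
        rw [← hu0] at this
        have h := this.comp_hasDerivAt (0 : ℝ) (hud 0)
        rw [hu0] at h
        exact h
      have e3 : HasDerivAt (fun ε => Uh (e (u ε))) (fderiv ℝ Uh (e w) (fderiv ℝ e w k)) 0 := by
        have := hU.hasFDerivAt
        rw [← hu0] at this
        have h := this.comp_hasDerivAt (0 : ℝ) e2
        rw [hu0] at h
        exact h
      exact (e1.const_smul c1).sub (e3.const_smul c2)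
    refine jc_hasDerivAt_apply₂_of_zero (B := fun ε => g (e (u ε)))
      (γ := fun ε => fderiv ℝ e (u ε) k) (hg.tendsto.comp heut) ?_ hβ ?_
    · exact jc_tendsto_clm_apply (hde.tendsto.comp hut) tendsto_const_nhds
    · simp only [hu0, hm]
  · simp only [hu0, hm, map_zero, zero_apply]

/-- `jacobi_core` without the finite dimensionality assumptions. -/
theorem jc_jacobi_core (e : V → E) (v k : V) (g0 : V →L[ℝ] V →L[ℝ] ℝ)
    (g : E → E →L[ℝ] E →L[ℝ] ℝ) (b : E → ℝ) (Uh : E → E) (σ K : ℝ) (hσ : 0 < σ)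
    (he : ContDiffAt ℝ ∞ e v) (hg : ContDiffAt ℝ ∞ g (e v)) (hb : ContDiffAt ℝ ∞ b (e v))
    (hU : ContDiffAt ℝ ∞ Uh (e v))
    (hg0 : ∀ a c : V, g0 a c = g0 c a)
    (hpos : ∀ a : E, a ≠ 0 → 0 < g (e v) a a)
    (hgauss : ∀ᶠ u in 𝓝 v, ∀ c : V, g0 u c = g (e u) (fderiv ℝ e u u) (fderiv ℝ e u c))
    (hDb : ∀ᶠ y in 𝓝 (e v), ∀ δ : E, fderiv ℝ b y δ = - g y (Uh y) δ)
    (hUray : ∀ᶠ t in 𝓝 (1 : ℝ),
      Uh (e (t • v)) = ((1 + σ - t) / t) • fderiv ℝ e (t • v) (t • v))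
    (hnonneg : ∀ᶠ q in 𝓝 ((1 : ℝ), v),
      0 ≤ (1 + σ) / q.1 * (g0 q.2 q.2 / 2) + (1 + σ) / (1 + σ - q.1) * b (e q.2) - K)
    (hzero : ∀ᶠ t in 𝓝 (1 : ℝ),
      (1 + σ) / t * (g0 (t • v) (t • v) / 2) + (1 + σ) / (1 + σ - t) * b (e (t • v)) - K = 0)
    (hk : fderiv ℝ e v k = 0) (ha : fderiv ℝ (fun u : V => fderiv ℝ e u u) v k ≠ 0) : False := by
  -- finite smoothness in neighbourhoods
  have he3 : ContDiffAt ℝ 3 e v := he.of_le (WithTop.coe_le_coe.2 le_top)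
  have hg2 : ContDiffAt ℝ 2 g (e v) := hg.of_le (WithTop.coe_le_coe.2 le_top)
  have hb2 : ContDiffAt ℝ 2 b (e v) := hb.of_le (WithTop.coe_le_coe.2 le_top)
  have hU2 : ContDiffAt ℝ 2 Uh (e v) := hU.of_le (WithTop.coe_le_coe.2 le_top)
  have he3' : ∀ᶠ u in 𝓝 v, ContDiffAt ℝ 3 e u := he3.eventually (by simp)
  have hg2' : ∀ᶠ y in 𝓝 (e v), ContDiffAt ℝ 2 g y := hg2.eventually (by simp)
  have hb2' : ∀ᶠ y in 𝓝 (e v), ContDiffAt ℝ 2 b y := hb2.eventually (by simp)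
  have hU2' : ∀ᶠ y in 𝓝 (e v), ContDiffAt ℝ 2 Uh y := hU2.eventually (by simp)
  have hvh2 : ∀ u, ContDiffAt ℝ 3 e u → ContDiffAt ℝ 2 (fun u : V => fderiv ℝ e u u) u :=
    fun u h => (h.fderiv_right (m := 2) (by norm_num)).clm_apply contDiffAt_id
  -- the ray
  have hsd : HasDerivAt (fun t : ℝ => t • v) v 1 := by
    simpa using (hasDerivAt_id (1 : ℝ)).smul_const v
  have hs : Tendsto (fun t : ℝ => t • v) (𝓝 1) (𝓝 v) := by
    simpa using hsd.continuousAt.tendsto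
  have hes : Tendsto (fun t : ℝ => e (t • v)) (𝓝 1) (𝓝 (e v)) :=
    he3.continuousAt.tendsto.comp hs
  have hs2 : Tendsto (fun t : ℝ => (t, t • v)) (𝓝 1) (𝓝 ((1 : ℝ), v)) :=
    tendsto_id.prodMk_nhds hs
  set a : E := fderiv ℝ (fun u : V => fderiv ℝ e u u) v k with ha_def
  set G : ℝ → ℝ := fun t => g (e (t • v))
    (((1 + σ) / t) • fderiv ℝ (fun u : V => fderiv ℝ e u u) (t • v) k
      - ((1 + σ) / (1 + σ - t)) • fderiv ℝ Uh (e (t • v)) (fderiv ℝ e (t • v) k))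
    (fderiv ℝ e (t • v) k) with hG_def
  have hGnonneg : ∀ᶠ t in 𝓝 (1 : ℝ), 0 ≤ G t := by
    filter_upwards [hs.eventually he3'.eventually_nhds, hes.eventually hg2',
      hes.eventually hb2'.eventually_nhds, hes.eventually hU2',
      hs.eventually hgauss.eventually_nhds, hes.eventually hDb.eventually_nhds, hUray, hzero,
      hs2.eventually hnonneg.eventually_nhds, eventually_gt_nhds (show (0 : ℝ) < 1 by norm_num),
      eventually_lt_nhds (show (1 : ℝ) < 1 + σ by linarith)]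
      with t h1 h2 h3 h4 h5 h6 h7 h8 h9 h10 h11
    have h1' := h1.self_of_nhds
    refine jc_fixed e (t • v) k g0 g b Uh ((1 + σ) / t) ((1 + σ) / (1 + σ - t)) K hg0
      (h1.mono fun u hu => hu.differentiableAt (by norm_num))
      (h1'.fderiv_right (m := 2) (by norm_num)).continuousAt h2.continuousAt
      (h3.mono fun y hy => hy.differentiableAt (by norm_num))
      ((hvh2 _ h1').differentiableAt (by norm_num)) (h4.differentiableAt (by norm_num))
      h5 h6 ?_ ?_ h8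
    · rw [h7, smul_smul, ← sub_smul]
      have : (1 + σ) / t - (1 + σ) / (1 + σ - t) * ((1 + σ - t) / t) = 0 := by
        have ht : t ≠ 0 := h10.ne'
        have ht' : 1 + σ - t ≠ 0 := by linarith
        field_simp
        ring
      rw [this, zero_smul]
    · exact h9.curry_nhds.self_of_nhds
  -- derivative of `G` at `1`
  have hβ : HasDerivAt (fun t : ℝ => fderiv ℝ e (t • v) k) a 1 := by
    have hd2 : DifferentiableAt ℝ (fderiv ℝ e) v :=
      (he3.fderiv_right (m := 2) (by norm_num)).differentiableAt (by norm_num)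
    have h1 : HasFDerivAt (fderiv ℝ e) (fderiv ℝ (fderiv ℝ e) v) ((1 : ℝ) • v) := by
      simpa using hd2.hasFDerivAt
    have h2 : HasDerivAt (fun t : ℝ => fderiv ℝ e (t • v)) (fderiv ℝ (fderiv ℝ e) v v) 1 :=
      h1.comp_hasDerivAt (1 : ℝ) hsd
    have h3 : HasDerivAt (fun t : ℝ => fderiv ℝ e (t • v) k) (fderiv ℝ (fderiv ℝ e) v v k) 1 := by
      simpa using h2.clm_apply (hasDerivAt_const (1 : ℝ) k)
    have h4 : HasFDerivAt (fun u : V => fderiv ℝ e u u)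
        ((fderiv ℝ e v).comp (ContinuousLinearMap.id ℝ V) + (fderiv ℝ (fderiv ℝ e) v).flip v) v :=
      hd2.hasFDerivAt.clm_apply (hasFDerivAt_id v)
    have hsymm : IsSymmSndFDerivAt ℝ e v := he3.isSymmSndFDerivAt (by simp; norm_num)
    have h5 : a = fderiv ℝ (fderiv ℝ e) v v k := by
      rw [ha_def, h4.fderiv]
      simp [hk, hsymm k v]
    rw [h5]
    exact h3
  have hM : Tendsto (fun t : ℝ => ((1 + σ) / t) • fderiv ℝ (fun u : V => fderiv ℝ e u u) (t • v) k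
      - ((1 + σ) / (1 + σ - t)) • fderiv ℝ Uh (e (t • v)) (fderiv ℝ e (t • v) k)) (𝓝 1)
      (𝓝 ((1 + σ) • a)) := by
    have c1 : Tendsto (fun t : ℝ => (1 + σ) / t) (𝓝 1) (𝓝 ((1 + σ) / 1)) :=
      tendsto_const_nhds.div tendsto_id one_ne_zero
    have c2 : Tendsto (fun t : ℝ => (1 + σ) / (1 + σ - t)) (𝓝 1) (𝓝 ((1 + σ) / (1 + σ - 1))) :=
      tendsto_const_nhds.div (tendsto_const_nhds.sub tendsto_id) (by simpa using hσ.ne')
    have A1 : Tendsto (fun t : ℝ => fderiv ℝ (fun u : V => fderiv ℝ e u u) (t • v) k) (𝓝 1)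
        (𝓝 a) :=
      jc_tendsto_clm_apply
        ((((hvh2 v he3).fderiv_right (m := 1) (by norm_num)).continuousAt.tendsto).comp hs)
        tendsto_const_nhds
    have A0 : Tendsto (fun t : ℝ => fderiv ℝ e (t • v) k) (𝓝 1) (𝓝 (fderiv ℝ e v k)) :=
      jc_tendsto_clm_apply
        (((he3.fderiv_right (m := 2) (by norm_num)).continuousAt.tendsto).comp hs)
        tendsto_const_nhds
    have A2 : Tendsto (fun t : ℝ => fderiv ℝ Uh (e (t • v)) (fderiv ℝ e (t • v) k)) (𝓝 1)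
        (𝓝 (fderiv ℝ Uh (e v) (fderiv ℝ e v k))) :=
      jc_tendsto_clm_apply
        (((hU2.fderiv_right (m := 1) (by norm_num)).continuousAt.tendsto).comp hes) A0
    have := (c1.smul A1).sub (c2.smul A2)
    simpa [hk] using this
  have hGd : HasDerivAt G (g (e v) ((1 + σ) • a) a) 1 :=
    jc_hasDerivAt_apply_of_zero
      (B := fun t : ℝ => g (e (t • v))
        (((1 + σ) / t) • fderiv ℝ (fun u : V => fderiv ℝ e u u) (t • v) k
          - ((1 + σ) / (1 + σ - t)) • fderiv ℝ Uh (e (t • v)) (fderiv ℝ e (t • v) k)))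
      (jc_tendsto_clm_apply (hg2.continuousAt.tendsto.comp hes) hM) hβ (by simp [hk])
  have hc : 0 < g (e v) ((1 + σ) • a) a := by
    simp only [map_smul, smul_apply, smul_eq_mul]
    exact mul_pos (by linarith) (hpos a ha)
  have hG1 : G 1 = 0 := by simp [hG_def, hk]
  have hsign := eventually_nhdsWithin_sign_eq_of_deriv_pos (f := G) (x₀ := 1)
    (by rw [hGd.deriv]; exact hc) hG1
  obtain ⟨t, ⟨h1, h2⟩, h3⟩ := (((hGnonneg.and hsign).filter_mono nhdsWithin_le_nhds).and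
    (self_mem_nhdsWithin : Iio (1 : ℝ) ∈ 𝓝[<] 1)).exists
  have h4 : t - 1 < 0 := by
    have : t < 1 := h3
    linarith
  rw [sign_neg h4] at h2
  have := sign_eq_neg_one_iff.1 h2
  linarith

end core

variable {V E : Type*} [NormedAddCommGroup V] [NormedSpace ℝ V] [FiniteDimensional ℝ V]
  [NormedAddCommGroup E] [NormedSpace ℝ E] [FiniteDimensional ℝ E]

theorem jacobi_core (e : V → E) (v k : V) (g0 : V →L[ℝ] V →L[ℝ] ℝ)
    (g : E → E →L[ℝ] E →L[ℝ] ℝ) (b : E → ℝ) (Uh : E → E) (σ K : ℝ) (hσ : 0 < σ)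
    (he : ContDiffAt ℝ ∞ e v) (hg : ContDiffAt ℝ ∞ g (e v)) (hb : ContDiffAt ℝ ∞ b (e v))
    (hU : ContDiffAt ℝ ∞ Uh (e v))
    (hg0 : ∀ a c : V, g0 a c = g0 c a)
    (hpos : ∀ a : E, a ≠ 0 → 0 < g (e v) a a)
    (hgauss : ∀ᶠ u in 𝓝 v, ∀ c : V, g0 u c = g (e u) (fderiv ℝ e u u) (fderiv ℝ e u c))
    (hDb : ∀ᶠ y in 𝓝 (e v), ∀ δ : E, fderiv ℝ b y δ = - g y (Uh y) δ)
    (hUray : ∀ᶠ t in 𝓝 (1 : ℝ),
      Uh (e (t • v)) = ((1 + σ - t) / t) • fderiv ℝ e (t • v) (t • v))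
    (hnonneg : ∀ᶠ q in 𝓝 ((1 : ℝ), v),
      0 ≤ (1 + σ) / q.1 * (g0 q.2 q.2 / 2) + (1 + σ) / (1 + σ - q.1) * b (e q.2) - K)
    (hzero : ∀ᶠ t in 𝓝 (1 : ℝ),
      (1 + σ) / t * (g0 (t • v) (t • v) / 2) + (1 + σ) / (1 + σ - t) * b (e (t • v)) - K = 0)
    (hk : fderiv ℝ e v k = 0) (ha : fderiv ℝ (fun u : V => fderiv ℝ e u u) v k ≠ 0) : False := by
  exact jc_jacobi_core e v k g0 g b Uh σ K hσ he hg hb hU hg0 hpos hgauss hDb hUray hnonneg hzero hk ha

end Claimed.Agent.R213.Calc
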