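import Mathlib

/-! # Row 213, calculus tools: smooth inverse function theorem on open sets, and the inverse
function theorem with parameters (smooth branch `W`, local uniqueness). Mathlib only.

* `exists_smooth_local_inverse`: a map `Φ : G → G`, smooth on an open set `S`, with injective
  derivative at `a ∈ S`, restricts to an `OpenPartialHomeomorph` with source inside `S`, whose
  inverse is smooth on the (open) target, and whose derivative is injective on the source.
* `exists_smooth_branch`: `F : P × E → E` smooth on an open `S ∋ (X₀, V₀)`, `D_V F (X₀, V₀)`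
  injective. Then there are open sets `N ∋ (X₀, V₀)`, `O ∋ (X₀, F (X₀, V₀))` and `W` smooth on `O`
  with `F (X, W (X, Y)) = Y` on `O` and `W (X, F (X, V)) = V` on `N`.
-/

set_option autoImplicit false

namespace Claimed.Agent.R213
namespace CalcB

open Set Filter Topology
open scoped ContDiff

section inverse
variable {G : Type*} [NormedAddCommGroup G] [NormedSpace ℝ G] [FiniteDimensional ℝ G]

/-- an injective endomorphism of a finite dimensional space is a continuous linear equivalence. -/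
theorem exists_equiv_of_injective (A : G →L[ℝ] G) (h : ∀ k, A k = 0 → k = 0) :
    ∃ B : G ≃L[ℝ] G, (B : G →L[ℝ] G) = A := by
  have hinj : Function.Injective (A : G →ₗ[ℝ] G) := by
    rw [← LinearMap.ker_eq_bot, LinearMap.ker_eq_bot']
    exact h
  refine ⟨(LinearEquiv.ofInjectiveEndo (A : G →ₗ[ℝ] G) hinj).toContinuousLinearEquiv, ?_⟩
  ext x
  simp

theorem exists_smooth_local_inverse {Φ : G → G} {S : Set G} (hS : IsOpen S)
    (hΦ : ContDiffOn ℝ ∞ Φ S) {a : G} (ha : a ∈ S) (hinj : ∀ k, fderiv ℝ Φ a k = 0 → k = 0) :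
    ∃ e : OpenPartialHomeomorph G G, a ∈ e.source ∧ e.source ⊆ S ∧ (∀ x, e x = Φ x) ∧
      ContDiffOn ℝ ∞ e.symm e.target ∧
      ∀ p ∈ e.source, ∃ B : G ≃L[ℝ] G, (B : G →L[ℝ] G) = fderiv ℝ Φ p := by
  have : CompleteSpace G := FiniteDimensional.complete ℝ G
  obtain ⟨B, hB⟩ := exists_equiv_of_injective _ hinj
  have hat : ∀ p ∈ S, ContDiffAt ℝ ∞ Φ p := fun p hp => hΦ.contDiffAt (hS.mem_nhds hp)
  have hd : ∀ p ∈ S, HasFDerivAt Φ (fderiv ℝ Φ p) p := fun p hp =>
    ((hat p hp).differentiableAt (by simp)).hasFDerivAt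
  have hd' : HasFDerivAt Φ (B : G →L[ℝ] G) a := hB ▸ hd a ha
  set e₀ := (hat a ha).toOpenPartialHomeomorph Φ hd' (by simp) with he₀
  -- the open set where the derivative is invertible
  have hcont : ContinuousOn (fderiv ℝ Φ) S := hΦ.continuousOn_fderiv_of_isOpen hS (by simp)
  set S' : Set G := S ∩ fderiv ℝ Φ ⁻¹' (range ((↑) : (G ≃L[ℝ] G) → G →L[ℝ] G)) with hS'
  have hS'o : IsOpen S' := hcont.isOpen_inter_preimage hS ContinuousLinearEquiv.isOpen
  refine ⟨e₀.restrOpen S' hS'o, ?_, ?_, fun x => rfl, ?_, ?_⟩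
  · exact ⟨(hat a ha).mem_toOpenPartialHomeomorph_source hd' (by simp), ha, B, hB⟩
  · exact fun p hp => hp.2.1
  · intro q hq
    have hq' : (e₀.restrOpen S' hS'o).symm q ∈ (e₀.restrOpen S' hS'o).source :=
      (e₀.restrOpen S' hS'o).map_target hq
    obtain ⟨B', hB'⟩ := hq'.2.2
    refine (OpenPartialHomeomorph.contDiffAt_symm (e₀.restrOpen S' hS'o) (f₀' := B') hq ?_
      ?_).contDiffWithinAt
    · rw [hB']
      exact hd _ hq'.2.1
    · exact hat _ hq'.2.1
  · exact fun p hp => hp.2.2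

end inverse

section param
variable {P E : Type*} [NormedAddCommGroup P] [NormedSpace ℝ P] [FiniteDimensional ℝ P]
  [NormedAddCommGroup E] [NormedSpace ℝ E] [FiniteDimensional ℝ E]

/-- **Inverse function theorem with parameters.** -/
theorem exists_smooth_branch {F : P × E → E} {S : Set (P × E)} (hS : IsOpen S)
    (hF : ContDiffOn ℝ ∞ F S) {X₀ : P} {V₀ : E} (h₀ : (X₀, V₀) ∈ S)
    (hinj : ∀ k : E, fderiv ℝ F (X₀, V₀) (0, k) = 0 → k = 0) :
    ∃ (W : P × E → E) (N O : Set (P × E)),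
      IsOpen N ∧ (X₀, V₀) ∈ N ∧ N ⊆ S ∧ IsOpen O ∧ (X₀, F (X₀, V₀)) ∈ O ∧
      ContDiffOn ℝ ∞ W O ∧ W (X₀, F (X₀, V₀)) = V₀ ∧
      (∀ q ∈ O, (q.1, W q) ∈ N ∧ F (q.1, W q) = q.2) ∧
      (∀ p ∈ N, (p.1, F p) ∈ O ∧ W (p.1, F p) = p.2) ∧
      (∀ p ∈ N, ∀ k : E, fderiv ℝ F p (0, k) = 0 → k = 0) := by
  set Φ : P × E → P × E := fun p => (p.1, F p) with hΦdef
  have hΦ : ContDiffOn ℝ ∞ Φ S := contDiffOn_fst.prodMk hF
  have hdF : ∀ p ∈ S, HasFDerivAt F (fderiv ℝ F p) p := fun p hp =>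
    ((hF.contDiffAt (hS.mem_nhds hp)).differentiableAt (by simp)).hasFDerivAt
  have hdΦ : ∀ p ∈ S, fderiv ℝ Φ p = (ContinuousLinearMap.fst ℝ P E).prod (fderiv ℝ F p) :=
    fun p hp => (hasFDerivAt_fst.prodMk (hdF p hp)).fderiv
  obtain ⟨e, hea, heS, heΦ, hesm, heinv⟩ := exists_smooth_local_inverse hS hΦ h₀ (by
    rintro ⟨ξ, k⟩ hk
    rw [hdΦ _ h₀] at hk
    simp only [ContinuousLinearMap.prod_apply, ContinuousLinearMap.coe_fst', Prod.mk_eq_zero]
      at hk
    obtain ⟨rfl, hk⟩ := hk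
    rw [hinj k hk]
    rfl)
  have hfst : ∀ q ∈ e.target, (e.symm q).1 = q.1 ∧ F (e.symm q) = q.2 := by
    intro q hq
    have := e.right_inv hq
    rw [heΦ] at this
    have h1 : ((e.symm q).1, F (e.symm q)) = q := this
    exact ⟨(Prod.ext_iff.mp h1).1, (Prod.ext_iff.mp h1).2⟩
  refine ⟨fun q => (e.symm q).2, e.source, e.target, e.open_source, hea, heS, e.open_target, ?_,
    contDiffOn_snd.comp hesm (fun _ _ => mem_univ _) |>.mono (subset_refl _), ?_, ?_, ?_, ?_⟩
  · have := e.map_source hea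
    rwa [heΦ] at this
  · have := e.left_inv hea
    rw [heΦ] at this
    exact congrArg Prod.snd this
  · intro q hq
    have h1 := hfst q hq
    have e1 : (q.1, (e.symm q).2) = e.symm q := by rw [← h1.1]
    simp only [e1]
    exact ⟨e.map_target hq, h1.2⟩
  · intro p hp
    have h1 := e.map_source hp
    have h2 := e.left_inv hp
    rw [heΦ] at h1 h2
    exact ⟨h1, congrArg Prod.snd h2⟩
  · intro p hp k hk
    obtain ⟨B, hB⟩ := heinv p hp
    have h1 : B (0, k) = 0 := by
      have : (B : P × E →L[ℝ] P × E) (0, k) = 0 := by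
        rw [hB, hdΦ _ (heS hp)]
        simp [hk]
      exact this
    have h2 : ((0 : P), k) = 0 := by
      have := B.injective (h1.trans (map_zero B).symm)
      exact this
    exact (Prod.mk_eq_zero.mp h2).2

end param

end CalcB
end Claimed.Agent.R213
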