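import Mathlib

/-!
# Row 213, generic calculus tool 1 (Mathlib only): second order Taylor expansion with parameters

`F : P × E → ℝ` smooth near `(p0, 0)`.  `d2 F p h` is the second derivative at `t = 0` of
`t ↦ F (p, t h)` written with iterated `deriv` (this is the shape in which it occurs in Def_0370).
-/

set_option autoImplicit false
open Set Filter Topology Metric
open scoped ContDiff

namespace Claimed.Agent.R213.Calc

variable {P E : Type*} [NormedAddCommGroup P] [NormedSpace ℝ P]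
  [NormedAddCommGroup E] [NormedSpace ℝ E]

/-- second derivative at `t = 0` of `t ↦ F (p, t h)`. -/
noncomputable def d2 (F : P × E → ℝ) (p : P) (h : E) : ℝ :=
  deriv (fun t : ℝ => deriv (fun t' : ℝ => F (p, t' • h)) t) 0

/-- the straight path `t ↦ (p, t h)` and its derivative. -/
theorem hasDerivAt_path (p : P) (h : E) (t : ℝ) :
    HasDerivAt (fun s : ℝ => ((p, s • h) : P × E)) ((0 : P), h) t := by
  have h1 : HasDerivAt (fun _ : ℝ => p) (0 : P) t := hasDerivAt_const t p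
  have h2 : HasDerivAt (fun s : ℝ => s • h) h t := by
    simpa using (hasDerivAt_id t).smul_const h
  exact h1.prodMk h2

omit [NormedSpace ℝ P] [NormedSpace ℝ E] in
theorem norm_zero_pair (h : E) : ‖((0 : P), h)‖ = ‖h‖ := by
  simp [Prod.norm_mk]

/-- first derivative along the straight path. -/
theorem hasDerivAt_along (F : P × E → ℝ) (p : P) (h : E) (t : ℝ)
    (hF : DifferentiableAt ℝ F (p, t • h)) :
    HasDerivAt (fun s : ℝ => F (p, s • h)) (fderiv ℝ F (p, t • h) (0, h)) t :=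
  hF.hasFDerivAt.comp_hasDerivAt t (hasDerivAt_path p h t)

/-- derivative of a `ℝ`-valued form field along the straight path, one slot evaluated. -/
theorem hasDerivAt_along_apply {G : Type*} [NormedAddCommGroup G] [NormedSpace ℝ G]
    (A : P × E → (P × E) →L[ℝ] G) (p : P) (h : E) (v : P × E) (t : ℝ)
    (hA : DifferentiableAt ℝ A (p, t • h)) :
    HasDerivAt (fun s : ℝ => A (p, s • h) v) (fderiv ℝ A (p, t • h) (0, h) v) t := by
  have h1 : HasDerivAt (fun s : ℝ => A (p, s • h)) (fderiv ℝ A (p, t • h) (0, h)) t :=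
    hA.hasFDerivAt.comp_hasDerivAt t (hasDerivAt_path p h t)
  have h2 := h1.clm_apply (hasDerivAt_const t v)
  simpa using h2

/-- `d2` in terms of the second Fréchet derivative. -/
theorem d2_eq_of_contDiffAt (F : P × E → ℝ) (p : P) (h : E) (hF : ContDiffAt ℝ 2 F (p, 0)) :
    d2 F p h = fderiv ℝ (fderiv ℝ F) (p, 0) (0, h) (0, h) := by
  have hev : ∀ᶠ q in 𝓝 ((p, 0) : P × E), ContDiffAt ℝ 2 F q := hF.eventually (by simp)
  have hcont : ContinuousAt (fun s : ℝ => ((p, s • h) : P × E)) 0 :=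
    (hasDerivAt_path p h 0).continuousAt
  have hev' : ∀ᶠ s in 𝓝 (0 : ℝ), ContDiffAt ℝ 2 F (p, s • h) := by
    have h0 : ((p, (0 : ℝ) • h) : P × E) = (p, 0) := by simp
    have := hcont.eventually (p := fun q => ContDiffAt ℝ 2 F q)
      (by show ∀ᶠ q in 𝓝 ((p, (0 : ℝ) • h) : P × E), ContDiffAt ℝ 2 F q
          rw [h0]; exact hev)
    exact this
  have heq : (fun t : ℝ => deriv (fun t' : ℝ => F (p, t' • h)) t)
      =ᶠ[𝓝 0] fun t : ℝ => fderiv ℝ F (p, t • h) (0, h) := by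
    filter_upwards [hev'] with t ht
    exact (hasDerivAt_along F p h t (ht.differentiableAt (by simp))).deriv
  have hD : DifferentiableAt ℝ (fderiv ℝ F) (p, (0 : ℝ) • h) := by
    have : ContDiffAt ℝ 1 (fderiv ℝ F) (p, 0) := hF.fderiv_right (by norm_num)
    simpa using this.differentiableAt (by simp)
  have := hasDerivAt_along_apply (fderiv ℝ F) p h (0, h) 0 hD
  unfold d2
  rw [heq.deriv_eq, this.deriv]
  simp

/-- `d2 F p` is a symmetric bilinear form depending smoothly on `p`. -/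
theorem exists_second_form (F : P × E → ℝ) (p0 : P) (hF : ContDiffAt ℝ ∞ F (p0, 0)) :
    ∃ Q : P → E →L[ℝ] E →L[ℝ] ℝ, ContDiffAt ℝ ∞ Q p0 ∧
      ∀ᶠ p in 𝓝 p0, (∀ h k : E, Q p h k = Q p k h) ∧ (∀ h : E, d2 F p h = Q p h h) ∧
        ∀ h k : E, HasDerivAt (fun s : ℝ => fderiv ℝ F (p, s • h) (0, k)) (Q p h k) 0 := by
  let A : ((P × E) →L[ℝ] ℝ) →L[ℝ] (E →L[ℝ] ℝ) :=
    (ContinuousLinearMap.compL ℝ E (P × E) ℝ).flip (ContinuousLinearMap.inr ℝ P E)
  refine ⟨fun p => (A.comp (fderiv ℝ (fderiv ℝ F) (p, 0))).comp (ContinuousLinearMap.inr ℝ P E),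
    ?_, ?_⟩
  · have h1 : ContDiffAt ℝ ∞ (fderiv ℝ F) (p0, 0) := hF.fderiv_right (by simp)
    have h2 : ContDiffAt ℝ ∞ (fderiv ℝ (fderiv ℝ F)) (p0, 0) := h1.fderiv_right (by simp)
    have h3 : ContDiffAt ℝ ∞ (fun p : P => ((p, 0) : P × E)) p0 :=
      contDiffAt_id.prodMk contDiffAt_const
    have h4 : ContDiffAt ℝ ∞ (fun p : P => fderiv ℝ (fderiv ℝ F) (p, 0)) p0 :=
      ContDiffAt.comp p0 h2 h3
    exact (contDiffAt_const.clm_comp h4).clm_comp contDiffAt_const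
  · have h2 : ContDiffAt ℝ 2 F (p0, 0) := hF.of_le (WithTop.coe_le_coe.2 le_top)
    have hev : ∀ᶠ q in 𝓝 ((p0, 0) : P × E), ContDiffAt ℝ 2 F q := h2.eventually (by simp)
    have hcont : ContinuousAt (fun p : P => ((p, 0) : P × E)) p0 := by fun_prop
    have hev' : ∀ᶠ p in 𝓝 p0, ContDiffAt ℝ 2 F (p, 0) := hcont.eventually hev
    filter_upwards [hev'] with p hp
    have hval : ∀ h k : E, ((A.comp (fderiv ℝ (fderiv ℝ F) (p, 0))).comp
        (ContinuousLinearMap.inr ℝ P E)) h k = fderiv ℝ (fderiv ℝ F) (p, 0) (0, h) (0, k) := by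
      intro h k
      simp [A]
    refine ⟨?_, ?_, ?_⟩
    · intro h k
      rw [hval, hval]
      exact hp.isSymmSndFDerivAt (by simp) _ _
    · intro h
      rw [hval]
      exact d2_eq_of_contDiffAt F p h hp
    · intro h k
      rw [hval]
      have hD : DifferentiableAt ℝ (fderiv ℝ F) (p, (0 : ℝ) • h) := by
        have : ContDiffAt ℝ 1 (fderiv ℝ F) (p, 0) := hp.fderiv_right (by norm_num)
        simpa using this.differentiableAt (by simp)
      have := hasDerivAt_along_apply (fderiv ℝ F) p h (0, k) 0 hD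
      simpa using this

section General

variable {V : Type*} [NormedAddCommGroup V] [NormedSpace ℝ V]

theorem hasDerivAt_line (x v : V) (t : ℝ) : HasDerivAt (fun s : ℝ => x + s • v) v t := by
  have h2 : HasDerivAt (fun s : ℝ => s • v) v t := by
    simpa using (hasDerivAt_id t).smul_const v
  simpa using h2.const_add x

theorem hasDerivAt_line_apply {G : Type*} [NormedAddCommGroup G] [NormedSpace ℝ G]
    (A : V → V →L[ℝ] G) (x v w : V) (t : ℝ) (hA : DifferentiableAt ℝ A (x + t • v)) :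
    HasDerivAt (fun s : ℝ => A (x + s • v) w) (fderiv ℝ A (x + t • v) v w) t := by
  have h1 : HasDerivAt (fun s : ℝ => A (x + s • v)) (fderiv ℝ A (x + t • v) v) t :=
    hA.hasFDerivAt.comp_hasDerivAt t (hasDerivAt_line x v t)
  have h2 := h1.clm_apply (hasDerivAt_const t w)
  simpa using h2

/-- one dimensional third order Taylor bound, crude constant. -/
theorem taylor_one_dim (g0 g1 g2 : ℝ → ℝ) (M : ℝ)
    (d0 : ∀ t ∈ Icc (0 : ℝ) 1, HasDerivAt g0 (g1 t) t)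
    (d1 : ∀ t ∈ Icc (0 : ℝ) 1, HasDerivAt g1 (g2 t) t)
    (s2 : ∀ t ∈ Icc (0 : ℝ) 1, ‖g2 t - g2 0‖ ≤ M) :
    ‖g0 1 - (g0 0 + g1 0 + g2 0 / 2)‖ ≤ M := by
  have z0 : (0 : ℝ) ∈ Icc (0 : ℝ) 1 := by simp
  have hM0 : 0 ≤ M := (norm_nonneg _).trans (s2 0 z0)
  -- step 2
  have s1 : ∀ t ∈ Icc (0 : ℝ) 1, ‖g1 t - g1 0 - g2 0 * t‖ ≤ M := by
    intro t ht
    have hd : ∀ x ∈ Icc (0 : ℝ) 1,
        HasDerivWithinAt (fun x => g1 x - g1 0 - g2 0 * x) (g2 x - g2 0) (Icc (0 : ℝ) 1) x := by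
      intro x hx
      have e : HasDerivAt (fun x => g1 x - g1 0 - g2 0 * x) (g2 x - g2 0 * 1) x :=
        ((d1 x hx).sub_const (g1 0)).sub ((hasDerivAt_id' x).const_mul (g2 0))
      rw [mul_one] at e
      exact e.hasDerivWithinAt
    have := (convex_Icc (0 : ℝ) 1).norm_image_sub_le_of_norm_hasDerivWithin_le hd s2 z0 ht
    calc ‖g1 t - g1 0 - g2 0 * t‖
        = ‖(g1 t - g1 0 - g2 0 * t) - (g1 0 - g1 0 - g2 0 * 0)‖ := by congr 1; ring
      _ ≤ M * ‖t - 0‖ := this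
      _ ≤ M * 1 := by
          gcongr
          rw [sub_zero, Real.norm_eq_abs, abs_of_nonneg ht.1]; exact ht.2
      _ = M := mul_one M
  -- step 3
  have s0 : ‖g0 1 - g0 0 - g1 0 * 1 - g2 0 * 1 ^ 2 / 2‖ ≤ M := by
    have hd : ∀ x ∈ Icc (0 : ℝ) 1,
        HasDerivWithinAt (fun x => g0 x - g0 0 - g1 0 * x - g2 0 * x ^ 2 / 2)
          (g1 x - g1 0 - g2 0 * x) (Icc (0 : ℝ) 1) x := by
      intro x hx
      have e : HasDerivAt (fun x => g0 x - g0 0 - g1 0 * x - g2 0 * x ^ 2 / 2)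
          (g1 x - g1 0 * 1 - g2 0 * (((2 : ℕ) : ℝ) * x ^ (2 - 1)) / 2) x :=
        (((d0 x hx).sub_const (g0 0)).sub ((hasDerivAt_id' x).const_mul (g1 0))).sub
        (((hasDerivAt_pow 2 x).const_mul (g2 0)).div_const 2)
      have e' : g1 x - g1 0 * 1 - g2 0 * (((2 : ℕ) : ℝ) * x ^ (2 - 1)) / 2
          = g1 x - g1 0 - g2 0 * x := by
        simp; ring
      rw [e'] at e
      exact e.hasDerivWithinAt
    have o1 : (1 : ℝ) ∈ Icc (0 : ℝ) 1 := by simp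
    have := (convex_Icc (0 : ℝ) 1).norm_image_sub_le_of_norm_hasDerivWithin_le hd s1 z0 o1
    calc ‖g0 1 - g0 0 - g1 0 * 1 - g2 0 * 1 ^ 2 / 2‖
        = ‖(g0 1 - g0 0 - g1 0 * 1 - g2 0 * 1 ^ 2 / 2)
            - (g0 0 - g0 0 - g1 0 * 0 - g2 0 * 0 ^ 2 / 2)‖ := by congr 1; ring
      _ ≤ M * ‖(1 : ℝ) - 0‖ := this
      _ = M := by simp
  calc ‖g0 1 - (g0 0 + g1 0 + g2 0 / 2)‖ = ‖g0 1 - g0 0 - g1 0 * 1 - g2 0 * 1 ^ 2 / 2‖ := by
        congr 1; ring
    _ ≤ M := s0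

/-- uniform third order Taylor bound on a normed space. -/
theorem taylor_unif_gen (F : V → ℝ) (x0 : V) (hF : ContDiffAt ℝ ∞ F x0) :
    ∃ C r : ℝ, 0 < r ∧ 0 ≤ C ∧ ∀ x ∈ ball x0 r, ∀ v : V, x + v ∈ ball x0 r →
      ContDiffAt ℝ 2 F x ∧
      |F (x + v) - (F x + fderiv ℝ F x v + fderiv ℝ (fderiv ℝ F) x v v / 2)| ≤ C * ‖v‖ ^ 3 := by
  have h1 : ContDiffAt ℝ ∞ (fderiv ℝ F) x0 := hF.fderiv_right (by simp)
  have h2 : ContDiffAt ℝ ∞ (fderiv ℝ (fderiv ℝ F)) x0 := h1.fderiv_right (by simp)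
  have hc2 : ContDiffAt ℝ 2 F x0 := hF.of_le (WithTop.coe_le_coe.2 le_top)
  have hev : ∀ᶠ q in 𝓝 x0, ContDiffAt ℝ 2 F q := hc2.eventually (by simp)
  obtain ⟨K, T, hT, hK⟩ := (h2.of_le (m := 1) (WithTop.coe_le_coe.2 le_top)).exists_lipschitzOnWith
  obtain ⟨r, hr, hball⟩ := Metric.eventually_nhds_iff_ball.1 (hev.and hT)
  refine ⟨K, r, hr, K.2, ?_⟩
  intro x hx v hxv
  refine ⟨(hball x hx).1, ?_⟩
  -- all points of the segment are in the good ball
  have hseg : ∀ t ∈ Icc (0 : ℝ) 1, x + t • v ∈ ball x0 r := by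
    intro t ht
    have := (convex_ball x0 r) hx hxv (a := 1 - t) (b := t) (by linarith [ht.2]) ht.1 (by ring)
    have e : (1 - t) • x + t • (x + v) = x + t • v := by
      rw [sub_smul, one_smul, smul_add]; abel
    rwa [e] at this
  have hc : ∀ t ∈ Icc (0 : ℝ) 1, ContDiffAt ℝ 2 F (x + t • v) := fun t ht => (hball _ (hseg t ht)).1
  have d0 : ∀ t ∈ Icc (0 : ℝ) 1,
      HasDerivAt (fun t : ℝ => F (x + t • v)) (fderiv ℝ F (x + t • v) v) t := fun t ht =>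
    ((hc t ht).differentiableAt (by simp)).hasFDerivAt.comp_hasDerivAt t (hasDerivAt_line x v t)
  have d1 : ∀ t ∈ Icc (0 : ℝ) 1, HasDerivAt (fun t : ℝ => fderiv ℝ F (x + t • v) v)
      (fderiv ℝ (fderiv ℝ F) (x + t • v) v v) t := fun t ht => by
    have : ContDiffAt ℝ 1 (fderiv ℝ F) (x + t • v) := (hc t ht).fderiv_right (by norm_num)
    exact hasDerivAt_line_apply (fderiv ℝ F) x v v t (this.differentiableAt (by simp))
  have s2 : ∀ t ∈ Icc (0 : ℝ) 1,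
      ‖fderiv ℝ (fderiv ℝ F) (x + t • v) v v - fderiv ℝ (fderiv ℝ F) (x + (0 : ℝ) • v) v v‖
        ≤ K * ‖v‖ ^ 3 := by
    intro t ht
    have e0 : x + (0 : ℝ) • v = x := by simp
    rw [e0]
    have e1 := hK.norm_sub_le (hball _ (hseg t ht)).2 (hball x hx).2
    have e2 : ‖x + t • v - x‖ ≤ ‖v‖ := by
      rw [add_sub_cancel_left, norm_smul, Real.norm_eq_abs, abs_of_nonneg ht.1]
      calc t * ‖v‖ ≤ 1 * ‖v‖ := by
            have := ht.2
            gcongr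
        _ = ‖v‖ := one_mul _
    have e3 := (fderiv ℝ (fderiv ℝ F) (x + t • v) - fderiv ℝ (fderiv ℝ F) x).le_opNorm₂ v v
    calc ‖fderiv ℝ (fderiv ℝ F) (x + t • v) v v - fderiv ℝ (fderiv ℝ F) x v v‖
        = ‖(fderiv ℝ (fderiv ℝ F) (x + t • v) - fderiv ℝ (fderiv ℝ F) x) v v‖ := by simp
      _ ≤ ‖fderiv ℝ (fderiv ℝ F) (x + t • v) - fderiv ℝ (fderiv ℝ F) x‖ * ‖v‖ * ‖v‖ := e3
      _ ≤ (K * ‖x + t • v - x‖) * ‖v‖ * ‖v‖ := by gcongr
      _ ≤ (K * ‖v‖) * ‖v‖ * ‖v‖ := by gcongr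
      _ = K * ‖v‖ ^ 3 := by ring
  have := taylor_one_dim _ _ _ _ d0 d1 s2
  simpa [Real.norm_eq_abs] using this

/-- local bound of the second derivative on a normed space. -/
theorem snd_bound_gen (F : V → ℝ) (x0 : V) (hF : ContDiffAt ℝ ∞ F x0) :
    ∃ C r : ℝ, 0 < r ∧ 0 ≤ C ∧ ∀ x ∈ ball x0 r,
      ContDiffAt ℝ 2 F x ∧ ∀ v : V, |fderiv ℝ (fderiv ℝ F) x v v| ≤ C * ‖v‖ ^ 2 := by
  have h1 : ContDiffAt ℝ ∞ (fderiv ℝ F) x0 := hF.fderiv_right (by simp)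
  have h2 : ContDiffAt ℝ ∞ (fderiv ℝ (fderiv ℝ F)) x0 := h1.fderiv_right (by simp)
  have hc2 : ContDiffAt ℝ 2 F x0 := hF.of_le (WithTop.coe_le_coe.2 le_top)
  have hev : ∀ᶠ q in 𝓝 x0, ContDiffAt ℝ 2 F q := hc2.eventually (by simp)
  obtain ⟨K, T, hT, hK⟩ := (h2.of_le (m := 1) (WithTop.coe_le_coe.2 le_top)).exists_lipschitzOnWith
  obtain ⟨r, hr, hball⟩ := Metric.eventually_nhds_iff_ball.1 (hev.and hT)
  refine ⟨‖fderiv ℝ (fderiv ℝ F) x0‖ + K * r, r, hr, by positivity, ?_⟩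
  intro x hx
  obtain ⟨ha, hb⟩ := hball x hx
  refine ⟨ha, fun v => ?_⟩
  have e1 := hK.norm_sub_le hb (hball x0 (mem_ball_self hr)).2
  have e2 : ‖x - x0‖ ≤ r := by
    rw [← dist_eq_norm]; exact (mem_ball.1 hx).le
  have e4 := norm_le_insert' (fderiv ℝ (fderiv ℝ F) x) (fderiv ℝ (fderiv ℝ F) x0)
  have e3 : ‖fderiv ℝ (fderiv ℝ F) x‖ ≤ ‖fderiv ℝ (fderiv ℝ F) x0‖ + K * r := by
    calc ‖fderiv ℝ (fderiv ℝ F) x‖
        ≤ ‖fderiv ℝ (fderiv ℝ F) x0‖ + ‖fderiv ℝ (fderiv ℝ F) x - fderiv ℝ (fderiv ℝ F) x0‖ :=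
          e4
      _ ≤ ‖fderiv ℝ (fderiv ℝ F) x0‖ + K * ‖x - x0‖ := by gcongr
      _ ≤ ‖fderiv ℝ (fderiv ℝ F) x0‖ + K * r := by gcongr
  rw [← Real.norm_eq_abs]
  calc ‖fderiv ℝ (fderiv ℝ F) x v v‖
      ≤ ‖fderiv ℝ (fderiv ℝ F) x‖ * ‖v‖ * ‖v‖ := ContinuousLinearMap.le_opNorm₂ _ _ _
    _ = ‖fderiv ℝ (fderiv ℝ F) x‖ * ‖v‖ ^ 2 := by ring
    _ ≤ (‖fderiv ℝ (fderiv ℝ F) x0‖ + K * r) * ‖v‖ ^ 2 := by gcongr

end General

/-- uniform third order Taylor bound. -/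
theorem taylor_unif (F : P × E → ℝ) (p0 : P) (hF : ContDiffAt ℝ ∞ F (p0, 0)) :
    ∃ C r : ℝ, 0 < r ∧ 0 ≤ C ∧ ∀ p ∈ ball p0 r, ∀ h ∈ ball (0 : E) r,
      |F (p, h) - (F (p, 0) + fderiv ℝ F (p, 0) (0, h) + d2 F p h / 2)| ≤ C * ‖h‖ ^ 3 := by
  obtain ⟨C, r, hr, hC, H⟩ := taylor_unif_gen F (p0, 0) hF
  refine ⟨C, r, hr, hC, ?_⟩
  intro p hp h hh
  have m1 : ((p, 0) : P × E) ∈ ball ((p0, 0) : P × E) r := by
    rw [← ball_prod_same]
    exact ⟨hp, mem_ball_self hr⟩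
  have m2 : ((p, 0) : P × E) + (0, h) ∈ ball ((p0, 0) : P × E) r := by
    rw [← ball_prod_same]
    simpa using And.intro hp hh
  obtain ⟨hc2, hb⟩ := H (p, 0) m1 (0, h) m2
  rw [d2_eq_of_contDiffAt F p h hc2]
  have e : ((p, 0) : P × E) + (0, h) = (p, h) := by simp
  rw [e, norm_zero_pair] at hb
  exact hb

/-- uniform bound of the second derivative. -/
theorem d2_bound (F : P × E → ℝ) (p0 : P) (hF : ContDiffAt ℝ ∞ F (p0, 0)) :
    ∃ C r : ℝ, 0 < r ∧ 0 ≤ C ∧ ∀ p ∈ ball p0 r, ∀ h : E, |d2 F p h| ≤ C * ‖h‖ ^ 2 := by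
  obtain ⟨C, r, hr, hC, H⟩ := snd_bound_gen F (p0, 0) hF
  refine ⟨C, r, hr, hC, ?_⟩
  intro p hp h
  have m1 : ((p, 0) : P × E) ∈ ball ((p0, 0) : P × E) r := by
    rw [← ball_prod_same]
    exact ⟨hp, mem_ball_self hr⟩
  obtain ⟨hc2, hb⟩ := H (p, 0) m1
  rw [d2_eq_of_contDiffAt F p h hc2]
  have := hb (0, h)
  rwa [norm_zero_pair] at this

/-- second order necessary condition at a local minimum, for iterated `deriv`. -/
theorem deriv2_nonneg_of_isLocalMin (f : ℝ → ℝ) (hf : ContDiffAt ℝ 2 f 0) (hmin : IsLocalMin f 0) :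
    0 ≤ deriv (fun t : ℝ => deriv f t) 0 := by
  by_contra hneg
  rw [not_le] at hneg
  have hd : deriv f 0 = 0 := hmin.deriv_eq_zero
  have hmax : IsLocalMax f 0 := isLocalMax_of_deriv_deriv_neg hneg hd hf.continuousAt
  have hconst : f =ᶠ[𝓝 0] fun _ => f 0 := by
    filter_upwards [hmin, hmax] with x h1 h2
    exact le_antisymm h2 h1
  have h1 : deriv f =ᶠ[𝓝 0] deriv (fun _ : ℝ => f 0) := hconst.deriv
  have h2 : deriv (deriv f) 0 = 0 := by
    rw [h1.deriv_eq]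
    simp
  have h3 : deriv (fun t : ℝ => deriv f t) 0 = 0 := h2
  linarith

/-- concavity on `[0,1]` from the sign of the second derivative (iterated `deriv`, shifted to `0`
as in the definition of the MTW tensor). -/
theorem concave_of_deriv2_nonpos (f : ℝ → ℝ) (hf : ∀ s ∈ Icc (0 : ℝ) 1, ContDiffAt ℝ 2 f s)
    (h2 : ∀ s ∈ Icc (0 : ℝ) 1, deriv (fun r : ℝ => deriv (fun r' : ℝ => f (s + r')) r) 0 ≤ 0)
    (l : ℝ) (h0 : 0 ≤ l) (h1 : l ≤ 1) : (1 - l) * f 0 + l * f 1 ≤ f l := by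
  have hconc : ConcaveOn ℝ (Icc (0 : ℝ) 1) f := by
    apply concaveOn_of_deriv2_nonpos (convex_Icc 0 1)
    · intro s hs
      exact (hf s hs).continuousAt.continuousWithinAt
    · intro s hs
      exact ((hf s (interior_subset hs)).differentiableAt (by simp)).differentiableWithinAt
    · intro s hs
      have : ContDiffAt ℝ 1 (deriv f) s := by
        have h3 := (hf s (interior_subset hs))
        have h4 : ContDiffAt ℝ 1 (fderiv ℝ f) s := h3.fderiv_right (by norm_num)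
        have h5 : deriv f = fun x => fderiv ℝ f x 1 := by
          funext x; simp
        rw [h5]
        exact h4.clm_apply contDiffAt_const
      exact (this.differentiableAt (by simp)).differentiableWithinAt
    · intro s hs
      have h3 := h2 s (interior_subset hs)
      have h4 : (fun r : ℝ => deriv (fun r' : ℝ => f (s + r')) r) = fun r => deriv f (s + r) := by
        funext r
        exact deriv_comp_const_add _ _ _
      rw [h4, deriv_comp_const_add] at h3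
      simpa using h3
  have h3 : (0 : ℝ) ∈ Icc (0 : ℝ) 1 := by simp
  have h4 : (1 : ℝ) ∈ Icc (0 : ℝ) 1 := by simp
  have h5 : (0 : ℝ) ≤ 1 - l := by linarith
  have h6 : (1 - l) + l = 1 := by ring
  have := hconc.2 h3 h4 h5 h0 h6
  simpa using this

end Claimed.Agent.R213.Calc
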