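import Mathlib

/-! # Row 213, calculus tools: uniform third order Taylor bound. Mathlib only.

* `taylor3_1d`: one dimensional Taylor bound `|g 1 - (g 0 + g' 0 + g'' 0 / 2)| ≤ M / 6`;
* `uniform_taylor3`: `f : Q → ℝ` of class `C^3` on an open set `O ⊇ K`, `K` compact. Then
  there are `C, r` with `|f (q + w) - (f q + D f q w + D^2 f q w w / 2)| ≤ C |w|^3` for `q ∈ K`,
  `|w| < r`, and `|D^2 f q w w| ≤ C |w|^2`;
* `uniform_taylor3_param`: the same for `f : P × E → ℝ`, `q = (p, 0)`, `w = (0, h)`, `p ∈ K`;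
* `deriv_line`, `deriv_deriv_line`: the two differentials as (nested) one dimensional derivatives of
  `t ↦ f (q + t • w)`.
-/

set_option autoImplicit false

namespace Claimed.Agent.R213
namespace CalcB

open Set Filter Topology Metric
open scoped ContDiff

/-- fencing step: `R 0 = 0`, `|R'| ≤ M t^k` on `[0,1]` gives `|R| ≤ M t^(k+1)/(k+1)`. -/
theorem fence_step {R R' : ℝ → ℝ} {M : ℝ} (k : ℕ) (h0 : R 0 = 0)
    (hd : ∀ t ∈ Icc (0 : ℝ) 1, HasDerivAt R (R' t) t)
    (hb : ∀ t ∈ Icc (0 : ℝ) 1, |R' t| ≤ M * t ^ k) :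
    ∀ t ∈ Icc (0 : ℝ) 1, |R t| ≤ M * t ^ (k + 1) / (k + 1) := by
  intro t ht
  have hB : ∀ x : ℝ, HasDerivAt (fun x : ℝ => M * x ^ (k + 1) / (k + 1)) (M * x ^ k) x := by
    intro x
    have h1 := ((hasDerivAt_pow (k + 1) x).const_mul M).div_const ((k : ℝ) + 1)
    have hk : ((k : ℝ) + 1) ≠ 0 := by positivity
    have e : M * (((k + 1 : ℕ) : ℝ) * x ^ (k + 1 - 1)) / ((k : ℝ) + 1) = M * x ^ k := by
      rw [Nat.add_sub_cancel]
      push_cast
      field_simp
    rw [e] at h1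
    exact h1
  have := image_norm_le_of_norm_deriv_right_le_deriv_boundary (f := R) (f' := R') (a := 0) (b := 1)
    (B := fun x : ℝ => M * x ^ (k + 1) / (k + 1)) (B' := fun x => M * x ^ k)
    (fun x hx => (hd x hx).continuousAt.continuousWithinAt)
    (fun x hx => (hd x (Ico_subset_Icc_self hx)).hasDerivWithinAt)
    (by simp [h0]) hB (fun x hx => hb x (Ico_subset_Icc_self hx)) ht
  simpa using this

/-- One dimensional third order Taylor bound on `[0,1]`. -/
theorem taylor3_1d {g g₁ g₂ : ℝ → ℝ} {M : ℝ}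
    (h₀ : ∀ t ∈ Icc (0 : ℝ) 1, HasDerivAt g (g₁ t) t)
    (h₁ : ∀ t ∈ Icc (0 : ℝ) 1, HasDerivAt g₁ (g₂ t) t)
    (s2 : ∀ t ∈ Icc (0 : ℝ) 1, |g₂ t - g₂ 0| ≤ M * t) :
    |g 1 - (g 0 + g₁ 0 + g₂ 0 / 2)| ≤ M / 6 := by
  have s1 := fence_step (R := fun t => g₁ t - g₁ 0 - t * g₂ 0) (R' := fun t => g₂ t - g₂ 0)
    (M := M) 1 (by simp)
    (fun t ht => by
      have h3 : HasDerivAt (fun t : ℝ => t * g₂ 0) (g₂ 0) t := by
        simpa using (hasDerivAt_id t).mul_const (g₂ 0)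
      exact ((h₁ t ht).sub_const (g₁ 0)).sub h3)
    (fun t ht => by simpa using s2 t ht)
  have s0 := fence_step (R := fun t => g t - g 0 - t * g₁ 0 - t ^ 2 / 2 * g₂ 0)
    (R' := fun t => g₁ t - g₁ 0 - t * g₂ 0) (M := M / 2) 2 (by simp)
    (fun t ht => by
      have h3 : HasDerivAt (fun t : ℝ => t ^ 2 / 2 * g₂ 0) (t * g₂ 0) t := by
        have := ((hasDerivAt_pow 2 t).div_const 2).mul_const (g₂ 0)
        have e : ((2 : ℕ) : ℝ) * t ^ (2 - 1) / 2 * g₂ 0 = t * g₂ 0 := by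
          norm_num
        rw [e] at this
        exact this
      have h4 : HasDerivAt (fun t : ℝ => t * g₁ 0) (g₁ 0) t := by
        simpa using (hasDerivAt_id t).mul_const (g₁ 0)
      exact (((h₀ t ht).sub_const (g 0)).sub h4).sub h3)
    (fun t ht => by
      have := s1 t ht
      norm_num at this ⊢
      linarith)
  have := s0 1 ⟨zero_le_one, le_rfl⟩
  norm_num at this
  have e : g 1 - (g 0 + g₁ 0 + g₂ 0 / 2) = g 1 - g 0 - g₁ 0 - 1 / 2 * g₂ 0 := by ring
  rw [e]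
  linarith

section line
variable {Q : Type*} [NormedAddCommGroup Q] [NormedSpace ℝ Q]

/-- derivative of the line `t ↦ q + t • w`. -/
theorem hasDerivAt_line (q w : Q) (t : ℝ) : HasDerivAt (fun t : ℝ => q + t • w) w t := by
  have := ((hasDerivAt_id t).smul_const w).const_add q
  simpa using this

theorem hasDerivAt_comp_line {f : Q → ℝ} {O : Set Q} (hO : IsOpen O)
    (hf : ContDiffOn ℝ 3 f O) (q w : Q) (t : ℝ) (ht : q + t • w ∈ O) :
    HasDerivAt (fun t : ℝ => f (q + t • w)) (fderiv ℝ f (q + t • w) w) t := by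
  have h1 : HasFDerivAt f (fderiv ℝ f (q + t • w)) (q + t • w) :=
    ((hf.contDiffAt (hO.mem_nhds ht)).differentiableAt (by norm_num)).hasFDerivAt
  exact h1.comp_hasDerivAt t (hasDerivAt_line q w t)

theorem hasDerivAt_comp_line₂ {f : Q → ℝ} {O : Set Q} (hO : IsOpen O)
    (hf : ContDiffOn ℝ 3 f O) (q w : Q) (t : ℝ) (ht : q + t • w ∈ O) :
    HasDerivAt (fun t : ℝ => fderiv ℝ f (q + t • w) w)
      (fderiv ℝ (fderiv ℝ f) (q + t • w) w w) t := by
  have hf1 : ContDiffOn ℝ 2 (fderiv ℝ f) O := hf.fderiv_of_isOpen hO (by norm_num)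
  have h1 : HasFDerivAt (fderiv ℝ f) (fderiv ℝ (fderiv ℝ f) (q + t • w)) (q + t • w) :=
    ((hf1.contDiffAt (hO.mem_nhds ht)).differentiableAt (by norm_num)).hasFDerivAt
  have h2 : HasDerivAt (fun t : ℝ => fderiv ℝ f (q + t • w))
      (fderiv ℝ (fderiv ℝ f) (q + t • w) w) t := h1.comp_hasDerivAt t (hasDerivAt_line q w t)
  have h3 := h2.clm_apply (hasDerivAt_const t w)
  simp only [map_zero, add_zero] at h3
  exact h3

/-- the first differential as a one dimensional derivative. -/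
theorem deriv_line {f : Q → ℝ} {O : Set Q} (hO : IsOpen O)
    (hf : ContDiffOn ℝ 3 f O) (q w : Q) (hq : q ∈ O) :
    deriv (fun t : ℝ => f (q + t • w)) 0 = fderiv ℝ f q w := by
  have := (hasDerivAt_comp_line hO hf q w 0 (by simpa using hq)).deriv
  simpa using this

/-- the second differential as a nested one dimensional derivative. -/
theorem deriv_deriv_line {f : Q → ℝ} {O : Set Q} (hO : IsOpen O)
    (hf : ContDiffOn ℝ 3 f O) (q w : Q) (hq : q ∈ O) :
    deriv (fun t : ℝ => deriv (fun t' : ℝ => f (q + t' • w)) t) 0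
      = fderiv ℝ (fderiv ℝ f) q w w := by
  have hc : Continuous fun t : ℝ => q + t • w := by fun_prop
  have hev : ∀ᶠ t in 𝓝 (0 : ℝ), q + t • w ∈ O :=
    hc.continuousAt.eventually_mem (hO.mem_nhds (by simpa using hq))
  have e : (fun t : ℝ => deriv (fun t' : ℝ => f (q + t' • w)) t)
      =ᶠ[𝓝 0] fun t => fderiv ℝ f (q + t • w) w := by
    filter_upwards [hev] with t ht
    exact (hasDerivAt_comp_line hO hf q w t ht).deriv
  rw [e.deriv_eq]
  have := (hasDerivAt_comp_line₂ hO hf q w 0 (by simpa using hq)).deriv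
  simpa using this

/-- uniform Lipschitz bound near a compact set for a `C^1` map. -/
theorem uniform_lipschitz [FiniteDimensional ℝ Q] {F : Type*} [NormedAddCommGroup F]
    [NormedSpace ℝ F] {φ : Q → F} {O : Set Q} (hO : IsOpen O)
    (hφ : ContDiffOn ℝ 1 φ O) {K : Set Q} (hK : IsCompact K) (hKO : K ⊆ O) :
    ∃ L r : ℝ, 0 ≤ L ∧ 0 < r ∧ ∀ q ∈ K, ‖φ q‖ ≤ L ∧ ball q r ⊆ O ∧
      ∀ y ∈ ball q r, ‖φ y - φ q‖ ≤ L * ‖y - q‖ := by
  obtain ⟨r, hr, hrO⟩ := hK.exists_cthickening_subset_open hO hKO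
  have hcomp : IsCompact (cthickening r K) := hK.cthickening
  have hc : ContinuousOn (fderiv ℝ φ) O := hφ.continuousOn_fderiv_of_isOpen hO (by norm_num)
  obtain ⟨C₁, hC₁⟩ := hcomp.exists_bound_of_continuousOn (hc.mono hrO)
  obtain ⟨C₀, hC₀⟩ := hcomp.exists_bound_of_continuousOn (hφ.continuousOn.mono hrO)
  refine ⟨max (max C₀ C₁) 0, r, le_max_right _ _, hr, fun q hq => ?_⟩
  have hsub : ball q r ⊆ cthickening r K :=
    (ball_subset_thickening hq r).trans (thickening_subset_cthickening r K)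
  refine ⟨(hC₀ q (self_subset_cthickening K hq)).trans
    ((le_max_left _ _).trans (le_max_left _ _)), hsub.trans hrO, fun y hy => ?_⟩
  refine (convex_ball q r).norm_image_sub_le_of_norm_hasFDerivWithin_le (f := φ)
    (f' := fderiv ℝ φ) (fun x hx => ?_) (fun x hx => ?_) (mem_ball_self hr) hy
  · exact ((hφ.contDiffAt (hO.mem_nhds (hrO (hsub hx)))).differentiableAt
      (by norm_num)).hasFDerivAt.hasFDerivWithinAt
  · exact (hC₁ x (hsub hx)).trans ((le_max_right _ _).trans (le_max_left _ _))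

/-- **Uniform third order Taylor bound on a compact set.** -/
theorem uniform_taylor3 [FiniteDimensional ℝ Q] {f : Q → ℝ} {O : Set Q} (hO : IsOpen O)
    (hf : ContDiffOn ℝ 3 f O) {K : Set Q} (hK : IsCompact K) (hKO : K ⊆ O) :
    ∃ C r : ℝ, 0 ≤ C ∧ 0 < r ∧ ∀ q ∈ K,
      (∀ w : Q, |fderiv ℝ (fderiv ℝ f) q w w| ≤ C * ‖w‖ ^ 2) ∧
      ∀ w : Q, ‖w‖ < r → q + w ∈ O ∧
        |f (q + w) - (f q + fderiv ℝ f q w + fderiv ℝ (fderiv ℝ f) q w w / 2)| ≤ C * ‖w‖ ^ 3 := by
  have hf1 : ContDiffOn ℝ 2 (fderiv ℝ f) O := hf.fderiv_of_isOpen hO (by norm_num)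
  have hf2 : ContDiffOn ℝ 1 (fderiv ℝ (fderiv ℝ f)) O := hf1.fderiv_of_isOpen hO (by norm_num)
  obtain ⟨C, r, hC, hr, h⟩ := uniform_lipschitz hO hf2 hK hKO
  have hop : ∀ (A : Q →L[ℝ] Q →L[ℝ] ℝ) (w : Q), |A w w| ≤ ‖A‖ * ‖w‖ ^ 2 := by
    intro A w
    rw [← Real.norm_eq_abs]
    calc ‖A w w‖ ≤ ‖A‖ * ‖w‖ * ‖w‖ := ((A w).le_opNorm _).trans
          (mul_le_mul_of_nonneg_right (A.le_opNorm _) (norm_nonneg _))
      _ = ‖A‖ * ‖w‖ ^ 2 := by ring
  refine ⟨C, r, hC, hr, fun q hq => ⟨fun w => ?_, fun w hw => ?_⟩⟩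
  · exact (hop _ w).trans (mul_le_mul_of_nonneg_right (h q hq).1 (by positivity))
  · obtain ⟨-, hball, hlip⟩ := h q hq
    have hseg : ∀ t ∈ Icc (0 : ℝ) 1, q + t • w ∈ ball q r := by
      intro t ht
      rw [mem_ball, dist_eq_norm, add_sub_cancel_left, norm_smul, Real.norm_of_nonneg ht.1]
      calc t * ‖w‖ ≤ 1 * ‖w‖ := mul_le_mul_of_nonneg_right ht.2 (norm_nonneg _)
        _ < r := by linarith
    have hmem : q + w ∈ O := by
      have := hball (hseg 1 ⟨zero_le_one, le_rfl⟩)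
      simpa using this
    refine ⟨hmem, ?_⟩
    have key := taylor3_1d (g := fun t : ℝ => f (q + t • w))
      (g₁ := fun t => fderiv ℝ f (q + t • w) w)
      (g₂ := fun t => fderiv ℝ (fderiv ℝ f) (q + t • w) w w)
      (M := C * ‖w‖ ^ 3)
      (fun t ht => hasDerivAt_comp_line hO hf q w t (hball (hseg t ht)))
      (fun t ht => hasDerivAt_comp_line₂ hO hf q w t (hball (hseg t ht)))
      (fun t ht => by
        have h1 := hlip _ (hseg t ht)
        rw [add_sub_cancel_left, norm_smul, Real.norm_of_nonneg ht.1] at h1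
        have h2 := hop (fderiv ℝ (fderiv ℝ f) (q + t • w) - fderiv ℝ (fderiv ℝ f) q) w
        simp only [zero_smul, add_zero]
        simp only [ContinuousLinearMap.sub_apply] at h2
        refine h2.trans ?_
        calc _ ≤ (C * (t * ‖w‖)) * ‖w‖ ^ 2 := mul_le_mul_of_nonneg_right h1 (by positivity)
          _ = C * ‖w‖ ^ 3 * t := by ring)
    simp only [one_smul, zero_smul, add_zero] at key
    refine key.trans ?_
    have : 0 ≤ C * ‖w‖ ^ 3 := by positivity
    linarith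

end line

section param
variable {P E : Type*} [NormedAddCommGroup P] [NormedSpace ℝ P] [FiniteDimensional ℝ P]
  [NormedAddCommGroup E] [NormedSpace ℝ E] [FiniteDimensional ℝ E]

/-- **Uniform third order Taylor bound with parameters.** -/
theorem uniform_taylor3_param {f : P × E → ℝ} {O : Set (P × E)} (hO : IsOpen O)
    (hf : ContDiffOn ℝ 3 f O) {K : Set P} (hK : IsCompact K) (hKO : ∀ p ∈ K, (p, (0 : E)) ∈ O) :
    ∃ C r : ℝ, 0 ≤ C ∧ 0 < r ∧ ∀ p ∈ K,
      (∀ h : E, |fderiv ℝ (fderiv ℝ f) (p, 0) (0, h) (0, h)| ≤ C * ‖h‖ ^ 2) ∧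
      ∀ h : E, ‖h‖ < r → (p, h) ∈ O ∧
        |f (p, h) - (f (p, 0) + fderiv ℝ f (p, 0) (0, h)
          + fderiv ℝ (fderiv ℝ f) (p, 0) (0, h) (0, h) / 2)| ≤ C * ‖h‖ ^ 3 := by
  have hsub : K ×ˢ ({0} : Set E) ⊆ O := by
    rintro ⟨p, h⟩ ⟨hp, hh⟩
    simp only [mem_singleton_iff] at hh
    rw [hh]
    exact hKO p hp
  obtain ⟨C, r, hC, hr, H⟩ := uniform_taylor3 hO hf (hK.prod isCompact_singleton) hsub
  have hn : ∀ h : E, ‖((0 : P), h)‖ = ‖h‖ := fun h => by simp [Prod.norm_def]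
  refine ⟨C, r, hC, hr, fun p hp => ?_⟩
  obtain ⟨H1, H2⟩ := H (p, 0) ⟨hp, rfl⟩
  refine ⟨fun h => ?_, fun h hh => ?_⟩
  · have := H1 (0, h)
    rwa [hn] at this
  · have := H2 (0, h) (by rwa [hn])
    rw [hn] at this
    simpa using this

/-- the first differential in the fibre direction as a one dimensional derivative. -/
theorem deriv_line_param {f : P × E → ℝ} {O : Set (P × E)} (hO : IsOpen O)
    (hf : ContDiffOn ℝ 3 f O) (p : P) (h : E) (hp : (p, (0 : E)) ∈ O) :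
    deriv (fun t : ℝ => f (p, t • h)) 0 = fderiv ℝ f (p, 0) (0, h) := by
  have := deriv_line hO hf (p, 0) (0, h) hp
  simpa using this

/-- the second differential in the fibre direction as a nested one dimensional derivative. -/
theorem deriv_deriv_line_param {f : P × E → ℝ} {O : Set (P × E)} (hO : IsOpen O)
    (hf : ContDiffOn ℝ 3 f O) (p : P) (h : E) (hp : (p, (0 : E)) ∈ O) :
    deriv (fun t : ℝ => deriv (fun t' : ℝ => f (p, t' • h)) t) 0
      = fderiv ℝ (fderiv ℝ f) (p, 0) (0, h) (0, h) := by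
  have := deriv_deriv_line hO hf (p, 0) (0, h) hp
  simpa using this

end param

end CalcB
end Claimed.Agent.R213
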